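import Mathlib

/-!
# P321: the deletion channel and the sample complexity of trace reconstruction
-/

namespace Vale.Agent.Lib.P321

open scoped ENNReal NNReal

/-- A coin that shows `true` with probability `p` and `false` with probability `1 - p`. -/
noncomputable def coin (p : ℝ≥0) (hp : p ≤ 1) : PMF Bool :=
  PMF.ofFintype (fun b => cond b (p : ℝ≥0∞) ((1 - p : ℝ≥0) : ℝ≥0∞)) (by
    rw [Fintype.sum_bool]
    simp only [cond_true, cond_false]
    rw [← ENNReal.coe_add, add_tsub_cancel_of_le hp, ENNReal.coe_one])

/-- The law of a trace of the binary string `x`: every bit is kept independently with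
probability `p` (deleted with probability `q = 1 - p`), the kept bits stay in their order. -/
noncomputable def trace (p : ℝ≥0) (hp : p ≤ 1) : List Bool → PMF (List Bool)
  | [] => PMF.pure []
  | b :: x => (coin p hp).bind fun keep =>
      (trace p hp x).map fun t => if keep then b :: t else t

/-- The law of `m` independent samples of `D`. -/
noncomputable def iid {β : Type} (D : PMF β) : ℕ → PMF (List β)
  | 0 => PMF.pure []
  | m + 1 => D.bind fun t => (iid D m).map fun ts => t :: ts

/-- `m` traces suffice for length `n`: some randomized estimator outputs `x` with probability at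
least `2/3` from `m` independent traces of `x`, for every binary string `x` of length `n`. -/
def Suffices (p : ℝ≥0) (hp : p ≤ 1) (n m : ℕ) : Prop :=
  ∃ est : List (List Bool) → PMF (List Bool), ∀ x : List Bool, x.length = n →
    (2 / 3 : ℝ≥0∞) ≤ ((iid (trace p hp x) m).bind est) x

/-- The worst-case sample complexity: the least `m` such that `m` traces suffice
(`⊤` if there is none). -/
noncomputable def T (p : ℝ≥0) (hp : p ≤ 1) (n : ℕ) : ℕ∞ :=
  ⨅ m ∈ {m : ℕ | Suffices p hp n m}, (m : ℕ∞)

end Vale.Agent.Lib.P321
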