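import Vale.Agent.Lib.P321.Defs

/-!
# P321: simulation of one channel from another
-/

namespace Vale.Agent.Lib.P321

open scoped ENNReal NNReal

/-- Apply the kernel `K` independently to every entry of a list. -/
noncomputable def mapK {β γ : Type} (K : β → PMF γ) : List β → PMF (List γ)
  | [] => PMF.pure []
  | t :: ts => (K t).bind fun u => (mapK K ts).map fun us => u :: us

lemma iid_bind {β γ : Type} (D : PMF β) (K : β → PMF γ) (m : ℕ) :
    iid (D.bind K) m = (iid D m).bind (mapK K) := by
  induction m with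
  | zero => simp [iid, mapK]
  | succ m ih =>
    simp only [iid, PMF.bind_bind, PMF.bind_map, ih, PMF.map_bind]
    congr 1
    funext t
    simp only [Function.comp_def, mapK]
    rw [PMF.bind_comm]

lemma le_map_apply {α β : Type} (μ : PMF α) (f : α → β) (a : α) : μ a ≤ (μ.map f) (f a) := by
  classical
  rw [PMF.map_apply]
  refine le_trans ?_ (ENNReal.le_tsum a)
  simp

/-- General simulation lemma. -/
lemma suffices_of_sim {p p' : ℝ≥0} {hp : p ≤ 1} {hp' : p' ≤ 1} {n n' m : ℕ}
    (K : List Bool → PMF (List Bool)) (φ ψ : List Bool → List Bool)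
    (hφ : ∀ x : List Bool, x.length = n → (φ x).length = n')
    (hψ : ∀ x : List Bool, ψ (φ x) = x)
    (hD : ∀ x : List Bool, trace p' hp' (φ x) = (trace p hp x).bind K)
    (h : Suffices p' hp' n' m) : Suffices p hp n m := by
  obtain ⟨est, hest⟩ := h
  refine ⟨fun ts => ((mapK K ts).bind est).map ψ, fun x hx => ?_⟩
  have h1 : (iid (trace p hp x) m).bind (fun ts => ((mapK K ts).bind est).map ψ)
      = ((iid (trace p' hp' (φ x)) m).bind est).map ψ := by
    rw [hD, iid_bind, PMF.bind_bind, PMF.map_bind]
  rw [h1]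
  refine le_trans (hest (φ x) (hφ x hx)) ?_
  have := le_map_apply ((iid (trace p' hp' (φ x)) m).bind est) ψ (φ x)
  rwa [hψ] at this

lemma coin_apply_true (p : ℝ≥0) (hp : p ≤ 1) : coin p hp true = p := by
  simp [coin]

lemma coin_apply_false (p : ℝ≥0) (hp : p ≤ 1) : coin p hp false = ((1 - p : ℝ≥0) : ℝ≥0∞) := by
  simp [coin]

lemma coin_bind_apply {γ : Type} (p : ℝ≥0) (hp : p ≤ 1) (F : Bool → PMF γ) (c : γ) :
    ((coin p hp).bind F) c = p * F true c + ((1 - p : ℝ≥0) : ℝ≥0∞) * F false c := by
  rw [PMF.bind_apply, tsum_fintype, Fintype.sum_bool, coin_apply_true, coin_apply_false]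

lemma coin_and {γ : Type} (p s : ℝ≥0) (hp : p ≤ 1) (hs : s ≤ 1) (hps : p * s ≤ 1)
    (F : Bool → PMF γ) :
    ((coin p hp).bind fun k => (coin s hs).bind fun k' => F (k && k'))
      = (coin (p * s) hps).bind F := by
  ext c
  simp only [coin_bind_apply, Bool.true_and, Bool.false_and]
  have h1 : ((1 - p * s : ℝ≥0) : ℝ≥0∞)
      = (p : ℝ≥0∞) * ((1 - s : ℝ≥0) : ℝ≥0∞) + ((1 - p : ℝ≥0) : ℝ≥0∞) * (s : ℝ≥0∞)
        + ((1 - p : ℝ≥0) : ℝ≥0∞) * ((1 - s : ℝ≥0) : ℝ≥0∞) := by
    rw [← ENNReal.coe_mul, ← ENNReal.coe_mul, ← ENNReal.coe_mul, ← ENNReal.coe_add,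
      ← ENNReal.coe_add, ENNReal.coe_inj]
    apply NNReal.eq
    push_cast [NNReal.coe_sub hp, NNReal.coe_sub hs, NNReal.coe_sub hps]
    ring
  rw [h1, ENNReal.coe_mul]
  ring

/-- Two successive deletion channels are a deletion channel. -/
lemma trace_bind_trace (p s : ℝ≥0) (hp : p ≤ 1) (hs : s ≤ 1) (hps : p * s ≤ 1) (x : List Bool) :
    (trace p hp x).bind (trace s hs) = trace (p * s) hps x := by
  induction x with
  | nil => simp [trace]
  | cons b x ih =>
    have key : ∀ k : Bool, ((trace p hp x).map fun t => if k then b :: t else t).bind (trace s hs)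
        = (coin s hs).bind fun k' =>
            (trace (p * s) hps x).map fun t => if (k && k') then b :: t else t := by
      intro k
      cases k with
      | true =>
        simp only [if_true, PMF.bind_map, Function.comp_def, trace, Bool.true_and]
        rw [PMF.bind_comm]
        congr 1
        funext k'
        rw [← ih, PMF.map_bind]
      | false =>
        simp only [Bool.false_and, Bool.false_eq_true, if_false, PMF.bind_const]
        rw [← ih]
        exact (congrArg (fun μ => PMF.bind μ (trace s hs)) (PMF.map_id (trace p hp x))).trans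
          (PMF.map_id _).symm
    rw [trace, PMF.bind_bind]
    simp only [key]
    rw [coin_and p s hp hs hps (fun kk => (trace (p * s) hps x).map
      fun t => if kk then b :: t else t)]
    rfl

/-- A trace of `false :: x` from a trace of `x`. -/
lemma trace_cons (p : ℝ≥0) (hp : p ≤ 1) (b : Bool) (x : List Bool) :
    trace p hp (b :: x) = (trace p hp x).bind fun t =>
      (coin p hp).map fun k => if k then b :: t else t := by
  rw [trace]
  simp only [← PMF.bind_pure_comp, Function.comp_def]
  rw [PMF.bind_comm]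

end Vale.Agent.Lib.P321
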